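import Vale.Agent.P280Z.Nw.Fam
import Vale.Agent.P280Z.Cv.Brg
import Vale.Agent.P280Z.Cv.Dge
import Vale.Agent.P280Z.Sq.Defs

/-!
# P280Z, block Nw: row NEWF
-/

open scoped Manifold ContDiff Topology Matrix
open Set Filter
open Vale.Agent.P272.K Vale.Agent.P285.H281.FD Vale.Agent.P281Z Vale.Agent.P280Z.Mp
open Vale.Agent.P277 (Bd.inv)

noncomputable section

namespace Vale.Agent.P280Z.Nw

variable {n : ℕ}

theorem gen_all (D : Dat n) (hN : NefRC n D.X.X) (d : ℕ) (a : BF d D.N) (hd : 0 < d)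
    (ha : Crv D.P a) : Gen D.P a :=
  let ⟨b, v, hv⟩ := Cv.frm n D d a ha
  (Cv.dim_of Cv.coef n D d a ha hd b v hv
    (Cv.nef_of Cv.pt_all Cv.coef (Cv.rcp_of Cv.pt_all) n D d a hN ha hd b v hv)).2

theorem par (D : Dat n) {F : Cm 2 → D.X.X} (hF : RC n F) :
    ∃ (d : ℕ) (a : BF d D.N), Crv D.P a ∧ ∀ p ≠ 0, D.pt (ev a p) = F p := by
  obtain ⟨i, hi⟩ := D.lb.cover (F ![0, 1])
  obtain ⟨j, hj⟩ := Function.ne_iff.1 (D.lifts.nz i _ hi)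
  obtain ⟨a, h⟩ := Cv.dge D.lb hF (D.sec j) hi hj
  obtain ⟨d, -, -, φ, h1⟩ := Cv.prc_of Cv.pt_all n D F a hF h
  exact ⟨d, φ, h1⟩

theorem newf_of (eqs : Cv.EQS) (chn : ∀ (n : ℕ) (V : Mf n), Fano n V.X → ∀ x y : V.X,
    Relation.ReflTransGen (fun x y => ∃ F : Cm 2 → V.X, RC n F ∧ (∃ p, p ≠ 0 ∧ F p = x) ∧
      ∃ q, q ≠ 0 ∧ F q = y) x y) : Sq.NEWF := by
  intro n V _ hF hN
  have := hF.1
  obtain ⟨m, N, r, δ, P, pt, s, hm, hc, h1, h2, h3⟩ :=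
    eqs n V _ inferInstance (Cv.lb_acan n V) hF.2
  let D : Dat n := ⟨V, N, r, δ, P, pt, (Bd.inv (Bd.can n V.X)).pow m, s, hF.1, hc,
    P281Z.lb_pow (Cv.lb_acan n V) m, h1, h2, h3⟩
  refine ⟨N, r, δ, P, pt, hc, fun Y π hπ ⟨x, y, hxy⟩ => ?_⟩
  obtain ⟨d, k, F, H, h⟩ := fam2 hc (gen_all D hN) hπ (by
    by_contra q
    refine hxy ?_
    clear hxy
    induction chn n V hF x y with
    | refl => rfl
    | tail _ k ih =>
      obtain ⟨F, hF, ⟨p, hp, rfl⟩, p', hp', rfl⟩ := k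
      obtain ⟨d, a, k1, k2⟩ := par D hF
      rw [ih, ← k2 p hp, ← k2 p' hp']
      exact not_not.1 (fun t => q ⟨d, a, k1, t⟩) p p' (k1 p hp).1 (k1 p' hp').1)
  exact ⟨d, k, F, ⟨H.cone, H.pos, H.free, H.gen⟩, h⟩

end Vale.Agent.P280Z.Nw
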