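import Vale.Agent.P280Z.Nw.Free
import Mathlib.Analysis.Complex.Liouville
import Mathlib.Analysis.Complex.AbsMax

/-!
# P280Z, block Nw: compactness of the family of the curves which are not contracted
-/

open scoped Topology Matrix ContDiff
open Set Filter Metric
open Vale.Agent.P272.K Vale.Agent.P280Z.Mp

noncomputable section

namespace Vale.Agent.P280Z.Nw

variable {d N r e : ℕ} {Y : Type} [MetricSpace Y] {P : Eqs r N} {f : Cm N → Y} {ε : ℝ}

/-- a holomorphic map from the projectivised cone to a metric space with uniform charts -/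
structure St (P : Eqs r N) (f : Cm N → Y) (ε : ℝ) : Prop where
  smul : ∀ x (c : ℂ), In P x → c ≠ 0 → f (c • x) = f x
  cont : ∀ x, In P x → ContinuousWithinAt f {y | In P y} x
  pos : 0 < ε
  ch : ∀ y, ∃ (m : ℕ) (c : Y → Cm m) (c' : Cm m → Y) (R : ℝ), ContinuousAt c y ∧
    ContinuousAt c' (c y) ∧ (∀ y' ∈ ball y (8 * ε), c' (c y') = y' ∧ ‖c y'‖ ≤ R) ∧
    ∀ x, In P x → f x ∈ ball y (8 * ε) → ∃ ρ : Cm N → Cm m, AnalyticAt ℂ ρ x ∧
      ∀ᶠ x' in 𝓝 x, In P x' → c (f x') = ρ x'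

/-- the curve in the affine coordinate -/
def G (f : Cm N → Y) (a : BF d N) (t : ℂ) : Y := f (ev a ![1, t])

/-- normalised curves -/
def Nrm (f : Cm N → Y) (ε : ℝ) (a : BF d N) : Prop :=
  (∀ s : ℂ, ‖s‖ ≤ 3 → dist (G f a s) (G f a 0) ≤ 3 * ε) ∧
    ∃ s : ℂ, ‖s‖ ≤ 2 ∧ ε < dist (G f a s) (G f a 0)

theorem ne1 (t : ℂ) : (![1, t] : Cm 2) ≠ 0 := fun h => one_ne_zero (congrFun h 0)

theorem ne2 (t : ℂ) : (![t, 1] : Cm 2) ≠ 0 := fun h => one_ne_zero (congrFun h 1)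

theorem ne0 (hd : 0 < d) {a : BF d N} {z : Cm 2} (h : ev a z ≠ 0) : z ≠ 0 := fun k =>
  h (by rw [k, ← zero_smul ℂ (0 : Cm 2), ev_arg, zero_pow hd.ne', zero_smul])

theorem an1 : ContDiff ℂ ω fun t : ℂ => (![1, t] : Cm 2) :=
  contDiff_pi.2 (Fin.forall_fin_two.2 ⟨contDiff_const, contDiff_id⟩)

theorem St.arg (h : St P f ε) {a : BF d N} (ha : Crv P a) {z : Cm 2} (hz : z ≠ 0) {c : ℂ}
    (hc : c ≠ 0) : f (ev a (c • z)) = f (ev a z) := by
  rw [ev_arg, h.smul _ _ (ha z hz) (pow_ne_zero d hc)]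

theorem St.tnd (h : St P f ε) {T : Type} {l : Filter T} {u : T → Cm N} {x : Cm N} (hx : In P x)
    (hu : Tendsto u l (𝓝 x)) {O : Set Y} (hO : O ∈ 𝓝 (f x)) :
    ∀ᶠ t in l, In P (u t) → f (u t) ∈ O :=
  hu.eventually (eventually_nhdsWithin_iff.1 ((h.cont x hx).tendsto.eventually_mem hO))

theorem St.tnd' (h : St P f ε) {a : BF d N} (ha : Crv P a) {T : Type} {l : Filter T} {u : T → Cm 2}
    {z : Cm 2} (hz : z ≠ 0) (hu : Tendsto u l (𝓝 z)) :
    Tendsto (fun t => f (ev a (u t))) l (𝓝 (f (ev a z))) := fun O hO => by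
  show ∀ᶠ t in l, f (ev a (u t)) ∈ O
  filter_upwards [h.tnd (ha z hz) (((an_ev2 a).continuous.tendsto z).comp hu) hO,
    hu.eventually_ne hz] with t h1 h2 using h1 (ha _ h2)

theorem St.inf (h : St P f ε) {a : BF d N} (ha : Crv P a) :
    Tendsto (G f a) (cocompact ℂ) (𝓝 (f (ev a ![0, 1]))) := by
  rw [← cobounded_eq_cocompact]
  refine (h.tnd' ha (ne2 0) (u := fun t : ℂ => ![t⁻¹, 1]) (tendsto_pi_nhds.2 (Fin.forall_fin_two.2
    ⟨tendsto_inv₀_cobounded, tendsto_const_nhds⟩))).congr' ?_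
  filter_upwards [Bornology.eventually_ne_cobounded (0 : ℂ)] with t ht
  rw [← h.arg ha (ne2 _) ht, G]
  congr 2
  funext i
  fin_cases i <;> simp [ht]

theorem St.dif (_ : St P f ε) {a : BF d N} (ha : Crv P a) {m : ℕ} {c : Y → Cm m} {t : ℂ}
    (k : ∃ ρ : Cm N → Cm m, AnalyticAt ℂ ρ (ev a ![1, t]) ∧
      ∀ᶠ x' in 𝓝 (ev a ![1, t]), In P x' → c (f x') = ρ x') :
    DifferentiableAt ℂ (fun t => c (G f a t)) t := by
  obtain ⟨ρ, h1, h2⟩ := k
  have h3 := ((an_ev2 a).comp an1).contDiffAt (x := t)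
  refine (h1.comp (f := fun t => ev a ![1, t]) h3.analyticAt).differentiableAt.congr_of_eventuallyEq ?_
  filter_upwards [h3.continuousAt.eventually h2] with s hs using hs (ha _ (ne1 s))

theorem St.liou (h : St P f ε) (hd : 0 < d) {a : BF d N} (ha : Crv P a) {y : Y}
    (k : ∀ t, G f a t ∈ ball y (8 * ε)) : Ct f a := by
  obtain ⟨m, c, c', R, -, -, h1, h2⟩ := h.ch y
  have h3 : ∀ t, G f a t = G f a 0 := fun t => by
    rw [← (h1 _ (k t)).1, Differentiable.apply_eq_apply_of_bounded (f := fun t => c (G f a t))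
      (fun s => h.dif ha (h2 _ (ha _ (ne1 s)) (k s))) (isBounded_iff_forall_norm_le.2
        ⟨R, forall_mem_range.2 fun s => (h1 _ (k s)).2⟩) t 0, (h1 _ (k 0)).1]
  have h4 : ∀ z, z ≠ 0 → f (ev a z) = G f a 0 := fun z hz => by
    by_cases h0 : z 0 = 0
    · have h5 : z 1 ≠ 0 := fun q => hz (funext (Fin.forall_fin_two.2 ⟨h0, q⟩))
      rw [show z = z 1 • ![0, 1] from funext (Fin.forall_fin_two.2 ⟨by simp [h0], by simp⟩),
        h.arg ha (ne2 0) h5]
      exact tendsto_nhds_unique (h.inf ha) (tendsto_const_nhds.congr fun t => (h3 t).symm)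
    · rw [show z = z 0 • ![1, z 1 / z 0] from funext (Fin.forall_fin_two.2
        ⟨by simp, by simp [mul_div_cancel₀ _ h0]⟩), h.arg ha (ne1 _) h0]
      exact h3 _
  exact fun z z' hz hz' => (h4 z (ne0 hd hz)).trans (h4 z' (ne0 hd hz')).symm

theorem St.opn (h : St P f ε) (hd : 0 < d) {a : BF d N} (ha : Crv P a) :
    ∀ᶠ b : BF d N in 𝓝 a, Crv P b → (Ct f b ↔ Ct f a) := by
  by_cases hc : Ct f a
  · filter_upwards [(isCompact_sphere (0 : Cm 2) 1).eventually_forall_of_forall_eventually (x₀ := a)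
      (P := fun b z => In P (ev b z) → f (ev b z) ∈ ball (G f a 0) (8 * ε)) fun z hz => by
        have h1 : z ≠ 0 := fun q => by simp [q] at hz
        exact h.tnd (ha z h1) (an_ev.continuous.tendsto (a, z)) (by
          rw [hc z _ (ha z h1).1 (ha _ (ne1 0)).1]
          exact ball_mem_nhds _ (mul_pos (by norm_num) h.pos))] with b hb hb'
    refine iff_of_true (h.liou hd hb' (y := G f a 0) fun t => ?_) hc
    have h1 : (‖(![1, t] : Cm 2)‖ : ℂ)⁻¹ ≠ 0 :=
      inv_ne_zero (Complex.ofReal_ne_zero.2 (norm_ne_zero_iff.2 (ne1 t)))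
    show f (ev b ![1, t]) ∈ _
    rw [← h.arg hb' (ne1 t) h1]
    exact hb _ (by rw [mem_sphere_zero_iff_norm, norm_smul, norm_inv, Complex.norm_real, norm_norm,
      inv_mul_cancel₀ (norm_ne_zero_iff.2 (ne1 t))]) (hb' _ (smul_ne_zero h1 (ne1 t)))
  · have hc' := hc
    simp only [Ct, not_forall] at hc'
    obtain ⟨z, z', h1, h2, h3⟩ := hc'
    obtain ⟨O, O', o1, o2, o3⟩ := t2_separation_nhds h3
    have h4 := ne0 hd h1
    have h5 := ne0 hd h2
    filter_upwards [h.tnd (ha z h4) ((evL d N z).continuous.tendsto a) o1,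
      h.tnd (ha z' h5) ((evL d N z').continuous.tendsto a) o2] with b b1 b2 hb
    refine iff_of_false (fun q => disjoint_left.1 o3 (b1 (hb z h4)) ?_) hc
    exact (q z z' (hb z h4).1 (hb z' h5).1).symm ▸ b2 (hb z' h5)

theorem St.gcd (h : St P f ε) (hP : Hom P e) : ∀ d : ℕ,
    (∀ d' < d, ∀ b : BF d' N, Crv P b → Ct f b) → ∀ b : BF d N, (∀ z, Pv P (ev b z) = 0) →
    Crv P b ∨ Ct f b
  | 0, _, b, _ => Or.inr fun z z' _ _ => by simp [ev]
  | d + 1, hL, b, hb => by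
    refine (em (Crv P b)).imp_right fun hc => ?_
    simp only [Crv, In, not_forall, hb, and_true, not_not] at hc
    obtain ⟨y, hy, h0⟩ := hc
    obtain ⟨ψ, ⟨b', hb'⟩, hψ⟩ := (hm_ev b).div hy h0
    have hy' : ∃ w, lf y w ^ e ≠ 0 := by
      by_cases h1 : y 1 = 0
      · have h2 : y 0 ≠ 0 := fun q => hy (funext (Fin.forall_fin_two.2 ⟨q, h1⟩))
        exact ⟨![0, 1], pow_ne_zero _ (by simp [lf, h2])⟩
      · exact ⟨![1, 0], pow_ne_zero _ (by simp [lf, h1])⟩
    have hz : ∀ z, Pv P (ev b' z) = 0 := ((hm_lf y).pow e).cancel hy' (hm_Pv hP (hm_ev b'))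
      fun z => by rw [← Pv_smul hP, ← hb', ← hψ, hb]
    have h1 : Ct f b' := (h.gcd hP d (fun d' k => hL d' (k.trans d.lt_succ_self)) b' hz).elim
      (hL d d.lt_succ_self b') id
    intro z z' k k'
    rw [hψ, hb'] at k k' ⊢
    rw [hψ z', hb', h.smul _ _ ⟨right_ne_zero_of_smul k, hz z⟩ (left_ne_zero_of_smul k),
      h.smul _ _ ⟨right_ne_zero_of_smul k', hz z'⟩ (left_ne_zero_of_smul k')]
    exact h1 z z' (right_ne_zero_of_smul k) (right_ne_zero_of_smul k')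

theorem fin0 {b : BF d N} (hb : b ≠ 0) : {t : ℂ | ev b ![1, t] = 0}.Finite := by
  obtain ⟨i, hi⟩ := Function.ne_iff.1 hb
  obtain ⟨l, hl⟩ := Function.ne_iff.1 hi
  refine (Polynomial.finite_setOfPred_isRoot (p := pl fun i => b i l) fun q => hl ?_).subset
    fun t ht => ?_
  · exact (pl_coeff (fun i => b i l) i).symm.trans (by rw [q]; rfl)
  · exact (pl_eval _ t).trans ((ev_apply b _ l).symm.trans (congrFun ht l))

theorem St.key (h : St P f ε) {b : BF d N} (hb : b ≠ 0) (h0 : ∀ z, Pv P (ev b z) = 0)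
    (hc : Ct f b) : ∀ᶠ a : BF d N in 𝓝 b, Crv P a → ¬ Nrm f ε a := by
  obtain ⟨ρ, ⟨r1, r2⟩, r3⟩ := (Ioo_infinite (show (2 : ℝ) < 3 by norm_num)).exists_notMem_finite
    ((fin0 hb).image norm)
  have r0 : 0 < ρ := by linarith
  have r4 : ∀ t ∈ sphere (0 : ℂ) ρ, In P (ev b ![1, t]) := fun t ht =>
    ⟨fun q => r3 ⟨t, q, mem_sphere_zero_iff_norm.1 ht⟩, h0 _⟩
  have r5 : (ρ : ℂ) ∈ sphere (0 : ℂ) ρ := by simp [abs_of_pos r0]
  have hε := h.pos
  obtain ⟨m, c, c', R, c1, c2, c3, c4⟩ := h.ch (G f b ρ)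
  obtain ⟨η, e1, e2⟩ := nhds_basis_closedBall.mem_iff.1 (c2.preimage_mem_nhds
    (t := ball (G f b ρ) (ε / 2)) (by
      rw [(c3 _ (mem_ball_self (by positivity))).1]
      exact ball_mem_nhds _ (half_pos hε)))
  filter_upwards [(isCompact_sphere (0 : ℂ) ρ).eventually_forall_of_forall_eventually (x₀ := b)
    (P := fun a t => In P (ev a ![1, t]) →
      G f a t ∈ ball (G f b ρ) ε ∩ c ⁻¹' closedBall (c (G f b ρ)) η) fun t ht =>
      h.tnd (r4 t ht) ((an_ev.continuous.comp (continuous_fst.prodMk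
        (an1.continuous.comp continuous_snd))).tendsto (b, t)) (by
          rw [hc _ _ (r4 t ht).1 (r4 _ r5).1]
          exact inter_mem (ball_mem_nhds _ hε) (c1.preimage_mem_nhds (closedBall_mem_nhds _ e1)))]
    with a h1 ha ⟨h2, s, h3, h4⟩
  have h5 : ∀ t : ℂ, ‖t‖ ≤ ρ → G f a t ∈ ball (G f b ρ) (8 * ε) := fun t ht => by
    have k1 := dist_triangle4 (G f a t) (G f a 0) (G f a ρ) (G f b ρ)
    have k2 := h2 t (by linarith)
    have k3 := h2 ρ (by rw [mem_sphere_zero_iff_norm.1 r5]; exact r2.le)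
    have k4 : dist _ _ < ε := (h1 _ r5 (ha _ (ne1 _))).1
    rw [dist_comm] at k3
    rw [mem_ball]
    linarith
  have h6 : ∀ t : ℂ, ‖t‖ ≤ ρ → dist (G f a t) (G f b ρ) < ε / 2 := fun t ht => by
    rw [← (c3 _ (h5 t ht)).1]
    refine e2 (mem_closedBall_iff_norm.2 (Complex.norm_le_of_forall_mem_frontier_norm_le
      (f := fun t => c (G f a t) - c (G f b ρ)) (isBounded_ball (x := 0) (r := ρ))
      (DifferentiableOn.diffContOnCl fun u hu => ?_) (fun u hu => ?_) ?_))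
    · rw [closure_ball _ r0.ne', mem_closedBall_zero_iff] at hu
      exact ((h.dif ha (c4 _ (ha _ (ne1 u)) (h5 u hu))).sub_const _).differentiableWithinAt
    · rw [frontier_ball _ r0.ne'] at hu
      exact mem_closedBall_iff_norm.1 (h1 u hu (ha _ (ne1 u))).2
    · rwa [closure_ball _ r0.ne', mem_closedBall_zero_iff]
  have h7 := dist_triangle_right (G f a s) (G f a 0) (G f b ρ)
  linarith [h6 s (by linarith), h6 0 (by rw [norm_zero]; exact r0.le)]

theorem St.nrm (h : St P f ε) (hd : 0 < d) {a : BF d N} (ha : Crv P a) (hc : ¬ Ct f a) :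
    ∃ g : M2, g.det ≠ 0 ∧ ‖act a g‖ = 1 ∧ Nrm f ε (act a g) := by
  classical
  have hε := h.pos
  obtain ⟨δ, d1, d2⟩ := uniformContinuous_iff_le.1 (Continuous.uniformContinuous_of_tendsto_cocompact
    (continuous_iff_continuousAt.2 fun t => h.tnd' ha (ne1 t) (an1.continuous.tendsto t))
    (h.inf ha)) ε hε
  let Q : ℕ → Prop := fun j => ∀ ⦃t t' : ℂ⦄, dist t t' ≤ δ * 2 ^ j → dist (G f a t) (G f a t') ≤ ε
  have h1 : ∃ j, ¬ Q (j + 1) := by
    by_contra k
    refine hc (h.liou hd ha (y := G f a 0) fun t => ?_)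
    obtain ⟨j, hj⟩ := pow_unbounded_of_one_lt (dist t 0 / δ) (show (1 : ℝ) < 2 by norm_num)
    have h2 := not_not.1 (not_exists.1 k j) (t := t) (t' := 0) (by
      rw [div_lt_iff₀ d1] at hj
      rw [pow_succ]
      nlinarith [dist_nonneg (x := t) (y := 0)])
    rw [mem_ball]
    linarith
  have h2 : Q (Nat.find h1) := by
    rcases hj : Nat.find h1 with _ | j
    · exact fun t t' k => d2 (by simpa using k)
    · exact not_not.1 (Nat.find_min h1 (hj ▸ j.lt_succ_self))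
  have h3 := Nat.find_spec h1
  generalize Nat.find h1 = j at h2 h3
  simp only [Q, not_forall, not_le] at h3
  obtain ⟨t, t', h4, h5⟩ := h3
  rw [pow_succ, ← mul_assoc] at h4
  obtain ⟨μ, hμ⟩ : ∃ μ, δ * 2 ^ j = μ := ⟨_, rfl⟩
  have h6 : 0 < μ := hμ ▸ by positivity
  simp only [Q, hμ] at h2 h4
  have h7 : (μ : ℂ) ≠ 0 := Complex.ofReal_ne_zero.2 h6.ne'
  let g : M2 := !![1, 0; t', μ]
  have g1 : g.det ≠ 0 := by simpa [g] using h6.ne'
  have g2 : act a g ≠ 0 := fun q => (ha.act g1 _ (ne1 0)).1 (by rw [q, ev_zero])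
  obtain ⟨α, hα⟩ := IsAlgClosed.exists_pow_nat_eq ((‖act a g‖ : ℂ)⁻¹) hd
  have g3 : α ≠ 0 := fun q => inv_ne_zero (Complex.ofReal_ne_zero.2 (norm_ne_zero_iff.2 g2))
    (by rw [← hα, q, zero_pow hd.ne'])
  have g4 : ∀ s, G f (act a (α • g)) s = G f a (t' + μ * s) := fun s => by
    rw [G, ev_act, Matrix.smul_mulVec, show g *ᵥ ![1, s] = ![1, t' + μ * s] by
      funext i
      fin_cases i <;> simp [g, mul_comm], h.arg ha (ne1 _) g3, G]
  refine ⟨α • g, by rw [Matrix.det_smul]; exact mul_ne_zero (pow_ne_zero _ g3) g1, ?_,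
    fun s hs => ?_, (t - t') / μ, ?_, ?_⟩
  · rw [act_smul, hα, norm_smul, norm_inv, Complex.norm_real, norm_norm,
      inv_mul_cancel₀ (norm_ne_zero_iff.2 g2)]
  · have k : ∀ u : ℂ, dist (G f a (u + μ * s / 3)) (G f a u) ≤ ε := fun u => h2 (by
      rw [dist_eq_norm, add_sub_cancel_left, norm_div, norm_mul, Complex.norm_real,
        Real.norm_of_nonneg h6.le, Complex.norm_ofNat]
      nlinarith)
    have k1 := dist_triangle4 (G f a (t' + μ * s / 3 + μ * s / 3 + μ * s / 3))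
      (G f a (t' + μ * s / 3 + μ * s / 3)) (G f a (t' + μ * s / 3)) (G f a t')
    rw [g4, g4, mul_zero, add_zero, show t' + μ * s = t' + μ * s / 3 + μ * s / 3 + μ * s / 3 by ring]
    linarith [k t', k (t' + μ * s / 3), k (t' + μ * s / 3 + μ * s / 3)]
  · rw [norm_div, Complex.norm_real, Real.norm_of_nonneg h6.le, div_le_iff₀ h6, ← dist_eq_norm]
    linarith
  · rwa [g4, g4, mul_zero, add_zero, mul_div_cancel₀ _ h7, add_sub_cancel]

theorem St.cp (h : St P f ε) (hP : Hom P e) (hd : 0 < d)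
    (hL : ∀ d' < d, ∀ b : BF d' N, Crv P b → Ct f b) :
    Cp fun a : BF d N => Crv P a ∧ ¬ Ct f a := by
  let S : Set (BF d N) := {a | ‖a‖ = 1 ∧ Crv P a ∧ Nrm f ε a}
  have h1 : closure S ⊆ sphere 0 1 := closure_minimal
    (fun a ha => mem_sphere_zero_iff_norm.2 ha.1) isClosed_sphere
  refine ⟨closure S, (isCompact_sphere 0 1).of_isClosed_subset isClosed_closure h1, fun b hb => ?_,
    fun a ha => ?_⟩
  · have h2 : ∀ z, Pv P (ev b z) = 0 := fun z => closure_minimal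
      (t := {b : BF d N | Pv P (ev b z) = 0}) (fun a ha => ha.2.1.pv hP z)
      (isClosed_eq ((an_Pv P).continuous.comp (evL d N z).continuous) continuous_const) hb
    have h3 : ¬ Ct f b := fun q => by
      obtain ⟨a, a1, a2⟩ := ((mem_closure_iff_frequently.1 hb).and_eventually
        (h.key (fun k => by simpa [k] using h1 hb) h2 q)).exists
      exact a2 a1.2.1 a1.2.2
    exact ⟨(h.gcd hP d hL b h2).resolve_right h3, h3⟩
  · obtain ⟨g, g1, g2, g3⟩ := h.nrm hd ha.1 ha.2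
    exact ⟨g, g1, subset_closure ⟨g2, ha.1.act g1, g3⟩⟩

end Vale.Agent.P280Z.Nw
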