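import Vale.Agent.P280Z.Stmt
import Vale.Agent.P280Z.Ma.Defs

/-!
# P280Z, block Nw: families of curves which are not contracted by a map (definitions)
-/

open scoped Manifold ContDiff Topology Matrix
open Set Filter
open Vale.Agent.P272.K Vale.Agent.P281Z Vale.Agent.P280Z.Mp

noncomputable section

namespace Vale.Agent.P280Z.Nw

variable {n N r d D k : ℕ} {V : Mf n} {P : Eqs r N} {pt : Cm N → V.X}

/-- the action is free up to roots of unity -/
def Fr (M : BF d N → Prop) : Prop :=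
  ∀ a, M a → ∀ g : M2, act a g = a → ∃ c : ℂ, c ^ d = 1 ∧ g = c • (1 : M2)

/-- a compact set meets every orbit -/
def Cp (M : BF d N → Prop) : Prop :=
  ∃ C : Set (BF d N), IsCompact C ∧ (∀ a ∈ C, M a) ∧ ∀ a, M a → ∃ g : M2, g.det ≠ 0 ∧ act a g ∈ C

/-- the standing hypotheses on a family -/
structure Hq (F : Fam V P pt d D k) (e : ℕ) : Prop where
  cone : Cone V P e pt
  pos : 0 < d
  gen : ∀ a : BF d N, Crv P a → Gen P a
  free : Fr F.M

/-- the curve `a` is contracted by `f` -/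
def Ct {Y : Type} (f : Cm N → Y) (a : BF d N) : Prop :=
  ∀ z z', ev a z ≠ 0 → ev a z' ≠ 0 → f (ev a z) = f (ev a z')

/-- the construction of the family -/
def MAPS2 : Prop := ∀ {n N r : ℕ} (V : Mf n) (P : Eqs r N) (e : ℕ) (pt : Cm N → V.X) (d D k : ℕ)
  (M : BF d N → Prop), Cone V P e pt → 0 < d → (∀ a : BF d N, Crv P a → Gen P a) →
  k + 4 = D → (∀ a, M a → CD P D a) → (∀ a (g : M2), M a → g.det ≠ 0 → M (act a g)) →
  (∀ a, Crv P a → ∀ᶠ b in 𝓝 a, Crv P b → (M b ↔ M a)) → Fr M → Cp M → (∃ a, M a) →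
  ∃ F : Fam V P pt d D k, F.M = M

/-- row BRX: an embedding and a curve which is not contracted -/
def BRX : Prop := ∀ {n : ℕ} (V : Mf n) (Y : Type) (π : V.X → Y), Fano n V.X → NefRC n V.X →
  (∃ x x', π x ≠ π x') → ∃ (N r e : ℕ) (P : Eqs r N) (pt : Cm N → V.X), Cone V P e pt ∧
    (∀ (d : ℕ) (a : BF d N), 0 < d → Crv P a → Gen P a) ∧
    ∃ (d : ℕ) (a : BF d N), Crv P a ∧ ¬ Ct (fun x => π (pt x)) a

/-- a family which is not contracted -/
def FAMX : Prop := ∀ {n y : ℕ} (V : Mf n) (Y : Mf y) (π : V.X → Y.X), Fano n V.X → NefRC n V.X →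
  HolM n y π → (∃ x x', π x ≠ π x') →
  ∃ (N r e d D k : ℕ) (P : Eqs r N) (pt : Cm N → V.X) (F : Fam V P pt d D k), Hq F e ∧ k + 4 = D ∧
    ConnectedSpace F.U.X ∧ ∃ u u', F.p u = F.p u' ∧ π (F.e u) ≠ π (F.e u')

end Vale.Agent.P280Z.Nw
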