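import Vale.Agent.P280Z.Nw.Cpt
import Vale.Agent.P280Z.Cv.Cmp
import Mathlib.Geometry.Manifold.Metrizable

/-!
# P280Z, block Nw: a connected family which is not contracted
-/

open scoped Manifold ContDiff Topology Matrix Matrix.Norms.Elementwise
open Set Filter
open Vale.Agent.P272.K Vale.Agent.P281Z Vale.Agent.P280Z.Mp

noncomputable section

namespace Vale.Agent.P280Z.Nw

open Cv.CmpH in
theorem cmp2 {n N r δ d D k : ℕ} {V : Mf n} {P : Eqs r N} {pt : Cm N → V.X}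
    (F : Mp.Fam V P pt d D k) (H : Hq F δ) (hp : Cp F.M) (hk : k + 4 = D) {a : BF d N} (ha : F.M a) :
    ∃ F' : Mp.Fam V P pt d D k, F'.M a ∧ (∀ b, F'.M b → F.M b) ∧ ConnectedSpace F'.U.X := by
  have : LocallyConnectedSpace F.K.X := ChartedSpace.locallyConnectedSpace (Cm k) F.K.X
  have hC : IsClopen (connectedComponent (F.pk a)) := isClopen_connectedComponent
  obtain ⟨C, q1, q2, q3⟩ := hp
  obtain ⟨G, hG⟩ := maps2 V P δ pt d D k
    (fun b => F.M b ∧ F.pk b ∈ connectedComponent (F.pk a)) H.cone H.pos H.gen hk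
    (fun b hb => F.cd b hb.1)
    (fun b g hb hg => ⟨F.inv b g hb.1 hg, by
      rw [← (F.pk_eq b _ hb.1 (F.inv b g hb.1 hg)).2 ⟨g, rfl⟩]; exact hb.2⟩)
    (fun b hb => by
      by_cases h : F.M b
      · by_cases h' : F.pk b ∈ connectedComponent (F.pk a)
        · filter_upwards [F.opn b hb, cont F h hC.2 h'] with c c1 c2 hc
          exact iff_of_true ⟨(c1 hc).2 h, c2 hc⟩ ⟨h, h'⟩
        · filter_upwards [cont F h hC.1.isOpen_compl h'] with c c2 hc
          exact iff_of_false (fun q => c2 hc q.2) fun q => h' q.2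
      · filter_upwards [F.opn b hb] with c c1 hc
        exact iff_of_false (fun q => h ((c1 hc).1 q.1)) fun q => h q.1)
    (fun b hb => H.free b hb.1)
    ⟨C ∩ F.pk ⁻¹' connectedComponent (F.pk a), q1.of_isClosed_subset
      ((F.pk_cont.mono q2).preimage_isClosed_of_isClosed q1.isClosed hC.1) inter_subset_left,
      fun b hb => ⟨q2 b hb.1, hb.2⟩, fun b hb => (q3 b hb.1).imp fun g hg => ⟨hg.1, hg.2, by
        rw [mem_preimage, ← (F.pk_eq b _ hb.1 (F.inv b g hb.1 hg.1)).2 ⟨g, rfl⟩]; exact hb.2⟩⟩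
    ⟨a, ha, mem_connectedComponent⟩
  have m : ∀ b, G.M b ↔ F.M b ∧ F.pk b ∈ connectedComponent (F.pk a) := fun b => by rw [hG]
  have ga : G.M a := (m a).2 ⟨ha, mem_connectedComponent⟩
  refine ⟨G, ga, fun b hb => ((m b).1 hb).1, ?_⟩
  have op : ∀ S : Set G.K.X, IsOpen S → IsOpen {y | ∃ b, G.M b ∧ G.pk b ∈ S ∧ F.pk b = y} := by
    intro S hS
    refine isOpen_iff_mem_nhds.2 ?_
    rintro _ ⟨b, hb, hb', rfl⟩
    obtain ⟨σ, χ, c, hs, -, h1, h2, -⟩ := F.chart b ((m b).1 hb).1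
    have e0 : χ.symm 0 = F.pk b := by rw [h1 0 hs.mem, hs.zero]
    have s0 : F.pk b ∈ χ.source := e0 ▸ χ.map_target hs.mem
    have e1 : χ (F.pk b) = 0 := by rw [← e0, χ.right_inv hs.mem]
    have t : Tendsto χ (𝓝 (F.pk b)) (𝓝 0) := e1 ▸ χ.continuousAt s0
    have t' : Tendsto σ (𝓝 0) (𝓝 b) := hs.zero ▸ (hs.an 0 hs.mem).continuousAt
    filter_upwards [χ.open_source.mem_nhds s0, (t'.comp t).eventually (cont G hb hS hb'),
      (t'.comp t).eventually (G.opn b (G.cd b hb).1)] with y y1 y2 y3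
    have q := (hs.cd _ (χ.map_source y1)).1
    exact ⟨_, (y3 q).2 hb, y2 q, (h1 _ (χ.map_source y1)).symm.trans (χ.left_inv y1)⟩
  have hK : IsConnected (univ : Set G.K.X) := by
    refine ⟨⟨G.pk a, trivial⟩, (isPreconnected_iff_subset_of_disjoint).2 fun S S' hS hS' h1 h2 => ?_⟩
    have dj : ∀ b c, G.M b → G.M c → G.pk b ∈ S → G.pk c ∈ S' → F.pk b ≠ F.pk c :=
      fun b c hb hc h3 h4 q => by
        have := (G.pk_eq b c hb hc).2 ((F.pk_eq b c ((m b).1 hb).1 ((m c).1 hc).1).1 q)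
        exact (h2.subset ⟨mem_univ (G.pk b), h3, this ▸ h4⟩ : _ ∈ (∅ : Set G.K.X))
    have := (isPreconnected_iff_subset_of_disjoint.1
      (isPreconnected_connectedComponent (x := F.pk a))) _ _ (op S hS) (op S' hS') (fun y hy => by
        obtain ⟨b, hb, rfl⟩ := F.pk_onto y
        have gb := (m b).2 ⟨hb, hy⟩
        exact (h1 (mem_univ (G.pk b))).imp (fun q => ⟨b, gb, q, rfl⟩) fun q => ⟨b, gb, q, rfl⟩)
      (eq_empty_of_forall_notMem (by
        rintro y ⟨-, ⟨b, hb, h3, rfl⟩, c, hc, h4, q⟩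
        exact dj b c hb hc h3 h4 q.symm))
    refine this.imp (fun q y _ => ?_) fun q y _ => ?_
    · obtain ⟨b, hb, rfl⟩ := G.pk_onto y
      obtain ⟨c, hc, h3, e⟩ := q ((m b).1 hb).2
      exact (h1 (mem_univ _)).resolve_right fun h4 => dj c b hc hb h3 h4 e
    · obtain ⟨b, hb, rfl⟩ := G.pk_onto y
      obtain ⟨c, hc, h3, e⟩ := q ((m b).1 hb).2
      exact (h1 (mem_univ _)).resolve_left fun h4 => dj b c hb hc h4 h3 e.symm
  exact connectedSpace_iff_univ.2 (conn_pre G.p_hol.cont (fib G H.pos) isClosed_univ hK)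

variable {n y N r e d : ℕ} {V : Mf n} {P : Eqs r N} {pt : Cm N → V.X}

theorem cont_pt (hC : Cone V P e pt) {x : Cm N} (hx : In P x) :
    ContinuousWithinAt pt {z | In P z} x := by
  have hχ := Cv.CmpH.at_ch V (pt x)
  obtain ⟨ρ, -, h1, -, -, h2, -⟩ := hC.loc x hx _ hχ
  have h3 := (h2.self_of_nhds hx).2
  refine (ContinuousAt.comp (f := ρ) (h3 ▸ (chartAt (Cm n) (pt x)).continuousAt_symm hχ.mem_target)
    h1.continuousAt).continuousWithinAt.congr_of_eventuallyEq ?_ ?_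
  · filter_upwards [mem_nhdsWithin_of_mem_nhds h2, self_mem_nhdsWithin] with z k1 k2
    rw [Function.comp, ← (k1 k2).2, (chartAt (Cm n) (pt x)).left_inv (k1 k2).1]
  · rw [Function.comp, ← h3, hχ.left_inv]

theorem cp_nc (hC : Cone V P e pt) {Y : Mf y} {π : V.X → Y.X} (hπ : HolM n y π) (hd : 0 < d)
    (hL : ∀ d' < d, ∀ b : BF d' N, Crv P b → Ct (fun x => π (pt x)) b) :
    (Cp fun a : BF d N => Crv P a ∧ ¬ Ct (fun x => π (pt x)) a) ∧ ∀ a : BF d N, Crv P a →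
      ∀ᶠ b : BF d N in 𝓝 a, Crv P b → (Ct (fun x => π (pt x)) b ↔ Ct (fun x => π (pt x)) a) := by
  have := Manifold.metrizableSpace 𝓘(ℝ, Cm y) Y.X
  let _ : MetricSpace Y.X := TopologicalSpace.metrizableSpaceMetric Y.X
  obtain ⟨L, l1, l2⟩ := lebesgue_number_lemma_of_metric (isCompact_univ (X := Y.X))
    (c := fun b : Y.X => (chartAt (Cm y) b).source ∩ chartAt (Cm y) b ⁻¹'
      Metric.ball (chartAt (Cm y) b b) 1)
    (fun b => (chartAt (Cm y) b).isOpen_inter_preimage Metric.isOpen_ball)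
    fun b _ => mem_iUnion.2 ⟨b, mem_chart_source _ b, Metric.mem_ball_self one_pos⟩
  have h : St P (fun x => π (pt x)) (L / 8) := by
    refine ⟨fun x c hx hc => congrArg π (hC.smul x c hx hc),
      fun x hx => hπ.cont.continuousAt.comp_continuousWithinAt (cont_pt hC hx), by positivity,
      fun b => ?_⟩
    obtain ⟨b', hb⟩ := l2 b trivial
    rw [mul_div_cancel₀ L (by norm_num)]
    have h1 := (hb (Metric.mem_ball_self l1)).1
    refine ⟨y, chartAt (Cm y) b', (chartAt (Cm y) b').symm, ‖chartAt (Cm y) b' b'‖ + 1,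
      (chartAt (Cm y) b').continuousAt h1,
      (chartAt (Cm y) b').continuousAt_symm ((chartAt (Cm y) b').map_source h1),
      fun u hu => ⟨(chartAt (Cm y) b').left_inv (hb hu).1,
        (norm_lt_of_mem_ball (hb hu).2).le⟩, fun x hx hu => ?_⟩
    have hχ := Cv.CmpH.at_ch V (pt x)
    obtain ⟨ρ, -, h2, -, -, h3, -⟩ := hC.loc x hx _ hχ
    have h4 := (hπ.at (pt x)).an hχ (e' := chartAt (Cm y) b') ⟨chart_mem_atlas _ _, (hb hu).1⟩
    rw [(h3.self_of_nhds hx).2] at h4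
    refine ⟨_, h4.comp (f := ρ) h2, h3.mono fun z k1 k2 => ?_⟩
    rw [Function.comp, ← (k1 k2).2, (chartAt (Cm n) (pt x)).left_inv (k1 k2).1]
  exact ⟨h.cp hC.hom hd hL, fun a ha => h.opn hd ha⟩

theorem ct_act {Y : Type} {f : Cm N → Y} {a : BF d N} (g : M2) (h : Ct f a) : Ct f (act a g) :=
  fun z z' => by
    rw [ev_act, ev_act]
    exact h _ _

theorem rk_le (a : BF d N) {g : M2} (hg : g.det ≠ 0) :
    Module.finrank ℂ (Tg P a) ≤ Module.finrank ℂ (Tg P (act a g)) :=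
  LinearMap.finrank_le_finrank_of_injective (f := (⟨⟨fun b => ⟨act b.1 g, fun z => by
      rw [ev_act, ev_act]
      exact b.2 _⟩, fun b b' => Subtype.ext (ev_inj fun z => by
        simp only [ev_act, Submodule.coe_add, ev_add])⟩,
      fun c b => Subtype.ext (ev_inj fun z => by
        simp only [ev_act, Submodule.coe_smul, ev_smul, RingHom.id_apply])⟩ :
      Tg P a →ₗ[ℂ] Tg P (act a g))) fun b b' h => Subtype.ext (by
    have h' : act b.1 g = act b'.1 g := congrArg Subtype.val h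
    rw [← Asm.act_inv b.1 hg, h', Asm.act_inv _ hg])

theorem rk_act (a : BF d N) {g : M2} (hg : g.det ≠ 0) :
    Module.finrank ℂ (Tg P (act a g)) = Module.finrank ℂ (Tg P a) := by
  refine le_antisymm ?_ (rk_le a hg)
  have h := rk_le (P := P) (act a g) (Matrix.isUnit_nonsing_inv_det g hg.isUnit).ne_zero
  rwa [Asm.act_inv a hg] at h

theorem rk4 (hP : Hom P e) (hd : 0 < d) {a : BF d N} (ha : Crv P a) :
    ∃ k, k + 4 = Module.finrank ℂ (Tg P a) := by
  have h := LinearMap.finrank_le_finrank_of_injective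
    (f := (infL a).codRestrict (Tg P a) (inf_mem (ha.pv hP)))
    ((injective_iff_map_eq_zero _).2 fun ξ h => (free P a hd ha).1 ξ (congrArg Subtype.val h))
  rw [Slc.rk4] at h
  exact ⟨_, Nat.sub_add_cancel h⟩

theorem fam2 (hC : Cone V P e pt) (hG : ∀ (d : ℕ) (a : BF d N), 0 < d → Crv P a → Gen P a)
    {Y : Mf y} {π : V.X → Y.X} (hπ : HolM n y π)
    (hex : ∃ (d : ℕ) (a : BF d N), Crv P a ∧ ¬ Ct (fun x => π (pt x)) a) :
    ∃ (d k : ℕ) (F : Mp.Fam V P pt d (k + 4) k), Hq F e ∧ ConnectedSpace F.U.X ∧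
      ∃ u u', F.p u = F.p u' ∧ π (F.e u) ≠ π (F.e u') := by
  classical
  obtain ⟨a, ha, hc⟩ := Nat.find_spec hex
  have hL : ∀ d' < Nat.find hex, ∀ b : BF d' N, Crv P b → Ct (fun x => π (pt x)) b :=
    fun d' h b hb => not_not.1 fun q => Nat.find_min hex h ⟨b, hb, q⟩
  generalize Nat.find hex = d at a ha hc hL
  have hd : 0 < d := Nat.pos_of_ne_zero (by
    rintro rfl
    exact hc fun z z' _ _ => by simp [ev])
  obtain ⟨⟨C, c1, c2, c3⟩, op⟩ := cp_nc hC hπ hd hL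
  have fr : ∀ b : BF d N, Crv P b → ¬ Ct (fun x => π (pt x)) b → ∀ g : M2, act b g = b →
      ∃ c : ℂ, c ^ d = 1 ∧ g = c • (1 : M2) := fun b h1 h2 =>
    free2 hd h1 fun d' h b' h3 h4 => h2 fun z z' => by
      obtain ⟨w, hw⟩ := h4 z
      obtain ⟨w', hw'⟩ := h4 z'
      rw [hw, hw']
      exact hL d' h b' h3 w w'
  obtain ⟨k, hk⟩ := rk4 hC.hom hd ha
  let M : BF d N → Prop := fun b => CD P (k + 4) b ∧ ¬ Ct (fun x => π (pt x)) b
  have inv : ∀ b (g : M2), M b → g.det ≠ 0 → M (act b g) := fun b g hb hg =>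
    ⟨⟨hb.1.1.act hg, (rk_act b hg).trans hb.1.2⟩,
      fun q => hb.2 (Asm.act_inv b hg ▸ ct_act g⁻¹ q)⟩
  have opn : ∀ b, Crv P b → ∀ᶠ b' in 𝓝 b, Crv P b' → (M b' ↔ M b) := fun b hb => by
    by_cases q : Ct (fun x => π (pt x)) b
    · exact (op b hb).mono fun b' h1 h2 => iff_of_false (fun t => t.2 ((h1 h2).2 q)) fun t => t.2 q
    obtain ⟨k', hk'⟩ := rk4 hC.hom hd hb
    obtain ⟨B, σ, hS⟩ := slc2 V P pt b hC hd (fr b hb q) (hG d b hd hb) ⟨hb, rfl⟩ hk'
    obtain ⟨vv, gg, h1, -, h2, -, h3⟩ := hS.loc 0 hS.mem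
    rw [hS.zero] at h1 h2 h3
    filter_upwards [op b hb, h3, (h2 ▸ h1.continuousAt.tendsto).eventually (hS.opn.mem_nhds hS.mem)]
      with b' k1 k2 k3 h4
    have k4 : Module.finrank ℂ (Tg P b') = Module.finrank ℂ (Tg P b) := by
      rw [k2 h4, rk_act _ (det_ne hd (k2 h4 ▸ h4.nz))]
      exact (hS.cd _ k3).2
    exact and_congr ⟨fun t => ⟨hb, k4.symm.trans t.2⟩, fun t => ⟨h4, k4.trans t.2⟩⟩
      (not_congr (k1 h4))
  have cp : Cp M := ⟨C ∩ {b | M b}, c1.of_isClosed_subset (isClosed_iff_frequently.2 fun x hx => by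
      have h1 := c1.isClosed.mem_of_frequently_of_tendsto (hx.mono fun _ h => h.1) tendsto_id
      obtain ⟨b, b1, b2⟩ := (hx.and_eventually (opn x (c2 x h1).1)).exists
      exact ⟨h1, (b2 (c2 b b1.1).1).1 b1.2⟩) inter_subset_left, fun _ h => h.2,
    fun b hb => (c3 b ⟨hb.1.1, hb.2⟩).imp fun g hg => ⟨hg.1, hg.2, inv b g hb hg.1⟩⟩
  have m0 : M a := ⟨⟨ha, hk.symm⟩, hc⟩
  obtain ⟨F, hM⟩ := maps2 V P e pt d (k + 4) k M hC hd (fun b => hG d b hd) rfl (fun _ h => h.1)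
    inv opn (fun b hb => fr b hb.1.1 hb.2) cp ⟨a, m0⟩
  have H : Hq F e := ⟨hC, hd, fun b => hG d b hd, hM.symm ▸ fun b hb => fr b hb.1.1 hb.2⟩
  obtain ⟨F', f1, f2, f3⟩ := cmp2 F H (hM.symm ▸ cp) rfl (a := a) (hM.symm ▸ m0)
  simp only [Ct, not_forall] at hc
  obtain ⟨z, z', h1, h2, h3⟩ := hc
  have h4 := ne0 hd h1
  have h5 := ne0 hd h2
  exact ⟨d, k, F', ⟨hC, hd, H.gen, fun b hb => H.free b (f2 b hb)⟩, f3,
    F'.pu a z, F'.pu a z', (F'.p_pu a z f1 h4).trans (F'.p_pu a z' f1 h5).symm, by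
      rwa [F'.e_pu a z f1 h4, F'.e_pu a z' f1 h5]⟩

end Vale.Agent.P280Z.Nw
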