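import Vale.Agent.P280Z.Nw.Maps

/-!
# P280Z, block Nw: the action is free on the curves which do not factor through a lower degree
-/

open scoped Topology Matrix
open Set Filter
open Vale.Agent.P272.K Vale.Agent.P280Z.Mp

noncomputable section

namespace Vale.Agent.P280Z.Nw

variable {d N : ℕ}

/-- a form that is invariant under a nonscalar diagonal matrix comes from a lower degree -/
theorem descend (hd : 0 < d) (a : BF d N) {α β : ℂ} (hα : α ^ d = 1) (hβ : β ^ d = 1)
    (hne : β ≠ α) (h : ∀ z : Cm 2, ev a ![α * z 0, β * z 1] = ev a z) :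
    ∃ d', 0 < d' ∧ d' < d ∧ ∃ (b : BF d' N) (m : ℕ), 0 < m ∧
      ∀ z' : Cm 2, ev b (fun i => z' i ^ m) = ev a z' := by
  have hα0 : α ≠ 0 := by
    rintro rfl
    rw [zero_pow hd.ne'] at hα
    exact zero_ne_one hα
  set ζ := β / α with hζ
  have h1 : (fun i : Fin (d + 1) => ζ ^ i.val • a i) = a := by
    refine ev_inj fun z => Eq.trans ?_ (h z)
    unfold ev
    refine Finset.sum_congr rfl fun i _ => ?_
    rw [smul_smul]
    congr 1
    have h2 : α ^ (d - i.val) * α ^ i.val = 1 := by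
      rw [← pow_add, ← hα]
      congr 1
      have := i.2
      omega
    have h3 : β = ζ * α := by rw [hζ, div_mul_cancel₀ _ hα0]
    simp only [Matrix.cons_val_zero, Matrix.cons_val_one, mul_pow]
    rw [h3, mul_pow]
    linear_combination (-(z 0 ^ (d - i.val) * z 1 ^ i.val * ζ ^ i.val)) * h2
  have h2 : ζ ^ d = 1 := by rw [hζ, div_pow, hα, hβ, div_one]
  obtain ⟨d', hd'⟩ := orderOf_dvd_of_pow_eq_one h2
  set m := orderOf ζ with hm
  have hm0 : 0 < m := Nat.pos_of_mul_pos_right (hd' ▸ hd)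
  have hd0 : 0 < d' := Nat.pos_of_mul_pos_left (hd' ▸ hd)
  have hm1 : m ≠ 1 := fun h3 => hne ((div_eq_one_iff_eq hα0).1 (orderOf_eq_one_iff.1 h3))
  have hlt : d' < d := by
    rw [hd']
    exact lt_mul_of_one_lt_left hd0 (by omega)
  let e : Fin (d' + 1) → Fin (d + 1) := fun j => ⟨m * j.val, by
    rw [hd']
    exact Nat.lt_succ_of_le (Nat.mul_le_mul_left m (Nat.lt_succ_iff.1 j.2))⟩
  refine ⟨d', hd0, hlt, fun j => a (e j), m, hm0, fun z' => ?_⟩
  · unfold ev
    refine Fintype.sum_of_injective e (fun i j h3 => ?_) _ _ (fun i hi => ?_) fun j => ?_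
    · exact Fin.ext (Nat.eq_of_mul_eq_mul_left hm0 (congrArg Fin.val h3))
    · have h3 : ζ ^ i.val ≠ 1 := by
        intro h4
        obtain ⟨j, hj⟩ := orderOf_dvd_of_pow_eq_one h4
        have h5 : j < d' + 1 := by
          refine Nat.lt_succ_of_le (Nat.le_of_mul_le_mul_left ?_ hm0)
          rw [← hj, ← hd']
          exact Nat.lt_succ_iff.1 i.2
        exact hi ⟨⟨j, h5⟩, Fin.ext hj.symm⟩
      have h4 : (ζ ^ i.val - 1) • a i = 0 := by
        rw [sub_smul, one_smul, sub_eq_zero]
        exact congrFun h1 i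
      rw [(smul_eq_zero.1 h4).resolve_left (sub_ne_zero.2 h3), smul_zero]
    · congr 1
      have h3 : d - m * j.val = m * (d' - j.val) := by rw [Nat.mul_sub, ← hd']
      show _ = z' 0 ^ (d - m * j.val) * z' 1 ^ (m * j.val)
      rw [h3, pow_mul, pow_mul]

theorem free2 {r : ℕ} {P : Eqs r N} {a : BF d N} (hd : 0 < d) (ha : Crv P a)
    (hL : ∀ d' < d, ∀ b : BF d' N, Crv P b → ¬ ∀ z, ∃ z', ev a z = ev b z') (g : M2)
    (h : act a g = a) : ∃ c : ℂ, c ^ d = 1 ∧ g = c • (1 : M2) := by
  have hz : Nz a := fun z h => (ha z h).1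
  have hg : ∀ z, ev a (g *ᵥ z) = ev a z := fun z => by rw [← ev_act, h]
  have he : ∀ (y : Cm 2) (μ : ℂ), y ≠ 0 → g *ᵥ y = μ • y → μ ^ d = 1 := by
    intro y μ hy h1
    have h2 := hg y
    rw [h1, ev_arg, ← sub_eq_zero] at h2
    nth_rw 2 [← one_smul ℂ (ev a y)] at h2
    rw [← sub_smul] at h2
    exact sub_eq_zero.1 ((smul_eq_zero.1 h2).resolve_right (hz y hy))
  obtain ⟨y, w, α, β, s, h0, h1, h2, h3⟩ := Free.tri g
  have hα := he y α (Free.ne_left h0) h1
  have hα0 : α ≠ 0 := by
    rintro rfl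
    rw [zero_pow hd.ne'] at hα
    exact zero_ne_one hα
  by_cases hs : s = 0
  · rw [hs, zero_smul, zero_add] at h2
    by_cases hβ : β = α
    · exact ⟨α, hα, Free.eq_of_basis h0 h1 (hβ ▸ h2)⟩
    · exfalso
      let H : M2 := Matrix.of fun i j => ![y i, w i] j
      have hH : ∀ z : Cm 2, H *ᵥ z = z 0 • y + z 1 • w := by
        intro z
        funext i
        simp [H, Matrix.mulVec, dotProduct, Fin.sum_univ_two, mul_comm]
      obtain ⟨d', -, a2, b, m, hm, hb⟩ := descend hd (act a H) hα (he w β (Free.ne_right h0) h2) hβ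
        fun z => by
          rw [ev_act, ev_act, ← hg (H *ᵥ z), hH, hH, Matrix.mulVec_add, Matrix.mulVec_smul,
            Matrix.mulVec_smul, h1, h2, smul_smul, smul_smul, mul_comm (z 0), mul_comm (z 1)]
          rfl
      have hD : H.det ≠ 0 := by
        rw [Matrix.det_fin_two, mul_comm (H 0 1)]
        exact h0
      refine hL d' a2 b (fun z hz0 => ?_) fun z => ⟨fun i => (H⁻¹ *ᵥ z) i ^ m, ?_⟩
      · choose z' hz' using fun i => IsAlgClosed.exists_pow_nat_eq (z i) hm
        rw [← funext hz', hb]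
        refine ha.act hD _ fun h5 => hz0 (funext fun i => ?_)
        rw [← hz' i, h5]
        exact zero_pow hm.ne'
      · rw [hb (H⁻¹ *ᵥ z), ev_act, Asm.mv_inv hD]
  · obtain rfl := h3.resolve_left hs
    refine (hz y (Free.ne_left h0) (Free.nounip hd a (w := w) (div_ne_zero hs hα0) fun k => ?_)).elim
    induction k with
    | zero => simp
    | succ k ih =>
      rw [← ih, ← hg (w + (k * (s / β)) • y)]
      have h4 : g *ᵥ (w + (k * (s / β)) • y) = β • (w + (((k + 1 : ℕ) : ℂ) * (s / β)) • y) := by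
        rw [Matrix.mulVec_add, Matrix.mulVec_smul, h1, h2]
        funext i
        simp only [Pi.add_apply, Pi.smul_apply, smul_eq_mul]
        push_cast
        field_simp
        ring
      rw [h4, ev_arg, hα, one_smul]

end Vale.Agent.P280Z.Nw
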