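import Vale.Agent.P280Z.Nw.Defs
import Vale.Agent.P280Z.Mp.All

/-!
# P280Z, block Nw: the family of the curves in a class with a free and cocompact action
-/

open scoped Manifold ContDiff Topology Matrix Matrix.Norms.Elementwise
open Set Filter Function Module
open Vale.Agent.P272.K Vale.Agent.P281Z Vale.Agent.P280Z.Mp
open Vale.Agent.P280Z.Pu (ap p1 p2)
open Vale.Agent.P280Z.Pu.PuF (p1_ap p2_ap ap_eta cd_ap)

noncomputable section

namespace Vale.Agent.P280Z.Nw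

open Slc in
theorem slc2 {n N r e d D k : ℕ} (V : Mf n) (P : Eqs r N) (pt : Cm N → V.X) (a : BF d N)
    (hC : Cone V P e pt) (hd : 0 < d)
    (hL : ∀ g : M2, act a g = a → ∃ c : ℂ, c ^ d = 1 ∧ g = c • (1 : M2)) (hG : Gen P a)
    (hc : CD P D a) (hk : k + 4 = D) : ∃ (B : Set (Cm k)) (σ : Cm k → BF d N), Slice P D a B σ := by
  obtain ⟨σ, β, h1, h2, h3, h4, h5, h6⟩ := data hC hd hG hc hk
  have hP := hC.hom
  have t1 : Tendsto σ (𝓝 0) (𝓝 a) := h2 ▸ h1.continuousAt.tendsto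
  have t2 : Tendsto (fun v : Cm k => ((1 : M2), v)) (𝓝 0) (𝓝 (1, 0)) :=
    Continuous.tendsto (f := fun v : Cm k => ((1 : M2), v)) (by fun_prop) 0
  obtain ⟨G, g1, -, g3⟩ := prop_ a a hd hc.1.nz hc.1.nz
  have t3 : Tendsto (fun x : Cm k × Cm k => (σ x.1, σ x.2)) (𝓝 (0, 0)) (𝓝 (a, a)) :=
    (t1.comp (continuous_fst.tendsto (0, 0))).prodMk_nhds (t1.comp (continuous_snd.tendsto (0, 0)))
  have i1 : ∀ᶠ x : Cm k × Cm k in 𝓝 (0, 0), ∀ g ∈ G, σ x.2 = act (σ x.1) g → x.1 = x.2 := by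
    refine g1.eventually_forall_of_forall_eventually
      (P := fun (x : Cm k × Cm k) g => σ x.2 = act (σ x.1) g → x.1 = x.2) fun g _ => ?_
    have c1 : Tendsto (fun y : (Cm k × Cm k) × M2 => y.1.1) (𝓝 ((0, 0), g)) (𝓝 0) :=
      continuous_fst.fst.tendsto _
    have c2 : Tendsto (fun y : (Cm k × Cm k) × M2 => y.1.2) (𝓝 ((0, 0), g)) (𝓝 0) :=
      continuous_fst.snd.tendsto _
    by_cases hg : act a g = a
    · obtain ⟨c, c3, rfl⟩ := hL g hg
      have c4 : c ≠ 0 := fun h => by simp [h, hd.ne'] at c3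
      have c5 : Tendsto (fun y : (Cm k × Cm k) × M2 => (c⁻¹ • y.2, y.1.1))
          (𝓝 ((0, 0), c • (1 : M2))) (𝓝 (1, 0)) :=
        ((continuous_snd.const_smul c⁻¹).tendsto' _ _ (inv_smul_smul₀ c4 _)).prodMk_nhds c1
      filter_upwards [c5.eventually h5, (t2.comp c2).eventually h5] with y y1 y2 y3
      simp only [Function.comp, act_smul, inv_pow, c3, inv_one, one_smul, act_one] at y1 y2
      rw [← y3, y2] at y1
      exact (congrArg Prod.snd y1).symm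
    · have c3 : Tendsto (fun y : (Cm k × Cm k) × M2 => (act (σ y.1.1) y.2, σ y.1.2))
          (𝓝 ((0, 0), g)) (𝓝 (act a g, a)) :=
        ((an_act.continuous.tendsto (a, g)).comp ((t1.comp c1).prodMk_nhds
          (continuous_snd.tendsto _))).prodMk_nhds (t1.comp c2)
      filter_upwards [c3.eventually (isClosed_diagonal.isOpen_compl.mem_nhds hg)] with y y1 y2
      exact absurd y2.symm y1
  have i2 : ∀ᶠ x : Cm k × Cm k in 𝓝 (0, 0), ∀ g, σ x.2 = act (σ x.1) g → x.1 = x.2 := by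
    filter_upwards [i1, t3.eventually g3] with x x1 x2 g hg using x1 g (x2 g hg) hg
  rw [nhds_prod_eq] at i2
  obtain ⟨O, o1, o2⟩ := (eventually_prod_self_iff
    (r := fun v v' => ∀ g, σ v' = act (σ v) g → v = v')).1 i2
  obtain ⟨B, b1, b2, b3⟩ := eventually_nhds_iff.1 ((show ∀ᶠ v in 𝓝 0, v ∈ O from o1).and
    ((h1.eventually (by simp)).and (h4.eventually_nhds.and ((t1.eventually (h3.eventually
      (by simp))).and ((t2.eventually h5.eventually_nhds).and (t1.eventually h6.eventually_nhds))))))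
  have tg : ∀ v ∈ B, ∀ u, fderiv ℂ σ v u ∈ Tg P (σ v) := fun v hv u => by
    obtain ⟨-, k1, k2, -⟩ := b1 v hv
    have k3 : (Psi P e ∘ σ) =ᶠ[𝓝 v] fun _ => 0 := k2.mono fun _ h => h.1.psi hP
    have k4 := congrArg (· u) (k3.fderiv_eq (𝕜 := ℂ))
    rw [fderiv_comp v ((an_Psi P e).differentiable (by simp) _) (k1.differentiableAt (by simp))]
      at k4
    rw [mem_Tg hP, ← fd_Psi hP]
    simpa using k4
  have ind : ∀ v ∈ B, ∀ ξ u, inf (σ v) ξ + fderiv ℂ σ v u = 0 → ξ = 0 ∧ u = 0 := fun v hv ξ u h => by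
    obtain ⟨-, k1, -, k2, k3, -⟩ := b1 v hv
    exact Prod.ext_iff.1 (fd_left (f := fun x : M2 × Cm k => act (σ x.2) x.1) (x := (1, v))
      (an_act' (ContDiffAt.comp (f := fun x : M2 × Cm k => x.2) (1, v) k1 contDiffAt_snd)
        contDiffAt_fst) (by rwa [act_one]) k3 (v := (ξ, u)) ((fd_m k1 ξ u).trans ((add_comm _ _).trans h)))
  have rg : ∀ v ∈ B, LinearMap.range ((infL (σ v)).coprod (fderiv ℂ σ v).toLinearMap) =
      Tg P (σ v) ∧ finrank ℂ (Tg P (σ v)) = D := fun v hv => by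
    obtain ⟨-, -, k2, -⟩ := b1 v hv
    have k3 : LinearMap.range ((infL (σ v)).coprod (fderiv ℂ σ v).toLinearMap) ≤ Tg P (σ v) := by
      rintro _ ⟨x, rfl⟩
      exact add_mem (inf_mem (k2.self_of_nhds.1.pv hP) _) (tg v hv _)
    have k4 := LinearMap.finrank_range_of_inj (f := (infL (σ v)).coprod (fderiv ℂ σ v).toLinearMap)
      ((injective_iff_map_eq_zero _).2 fun x h => Prod.ext_iff.2 (ind v hv x.1 x.2 h))
    rw [finrank_prod, rk4, finrank_fin_fun] at k4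
    have k5 := Submodule.finrank_mono k3
    have k6 := k2.self_of_nhds.2
    exact ⟨Submodule.eq_of_le_of_finrank_le k3 (by omega), by omega⟩
  refine ⟨B, σ, b2, b3, h2, fun v hv => (b1 v hv).2.1.analyticAt,
    fun v hv => ⟨(b1 v hv).2.2.1.self_of_nhds.1, (rg v hv).2⟩, tg, fun v hv b hb => ?_, ind,
    fun v hv v' hv' => o2 v (b1 v hv).1 v' (b1 v' hv').1, fun v hv => ?_⟩
  · obtain ⟨x, hx⟩ : b ∈ LinearMap.range _ := (rg v hv).1.symm ▸ hb
    exact ⟨x.1, x.2, hx.symm⟩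
  · obtain ⟨-, -, -, k2, k3, k4⟩ := b1 v hv
    have k5 := k3.self_of_nhds
    rw [act_one] at k5
    exact ⟨fun b => (β b).2, fun b => (β b).1, k2.snd.analyticAt, k2.fst.analyticAt,
      congrArg Prod.snd k5, congrArg Prod.fst k5, k4⟩

open Asm in
theorem maps2 : MAPS2 := by
  intro n N r V P e pt d D k M hC hd hG hk cd inv opn hL ⟨C, c1, c2, c3⟩ ⟨a0, h0⟩
  have nz : ∀ a, M a → Nz a := fun a h => (cd a h).1.nz
  have hS : ∀ a : {a // M a}, ∃ (B : Set (Cm k)) (σ : Cm k → BF d N), Slice P D a.1 B σ ∧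
      ∀ v ∈ B, M (σ v) := fun a => by
    obtain ⟨B, σ, h⟩ := slc2 V P pt a.1 hC hd (hL _ a.2) (hG _ (cd _ a.2).1) (cd _ a.2) hk
    have h1 : Tendsto σ (𝓝 0) (𝓝 a.1) := h.zero ▸ (h.an 0 h.mem).continuousAt.tendsto
    obtain ⟨B', b1, b2, b3⟩ := eventually_nhds_iff.1
      ((h1.eventually (opn _ (cd _ a.2).1)).and (h.opn.mem_nhds h.mem))
    exact ⟨B', σ, h.mono b2 b3 fun v hv => (b1 v hv).2, fun v hv =>
      ((b1 v hv).1 (h.cd v (b1 v hv).2).1).2 a.2⟩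
  choose B σ hS hM using hS
  have ca : ∀ g : M2, Continuous fun b : BF d N => act b g := fun g =>
    Continuous.comp (f := fun b : BF d N => (b, g)) an_act.continuous (by fun_prop)
  obtain ⟨K, pk, χ, k1, k2, k3, k4, k5, k6⟩ := quo2 {a | M a} RK B σ ⟨a0, h0⟩
    (fun a _ => RK.refl a) (fun _ a' h => RK.symm hd (nz a' h)) (fun _ _ _ => RK.trans)
    (fun a a' h ⟨g, hg⟩ => ⟨fun b => act b g, ca g, hg.symm, fun b hb =>
      ⟨inv b g hb (det_ne hd (hg ▸ nz a' h)), g, rfl⟩⟩)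
    (fun a h a' h' hf => (cl0 hd (f := fun _ => 0) continuous_fst continuous_snd continuous_const
      (t := (a, a')) (nz a h) (nz a' h') (hf.mono fun _ ⟨g, hg⟩ => ⟨g, hg, rfl⟩)).imp fun _ h => h.1)
    ⟨C, c2, c1, fun a h => by
      obtain ⟨g, -, g2⟩ := c3 a h
      exact ⟨_, g2, g, rfl⟩⟩
    (fun i => (hS i).opn) (fun i => (hS i).an) hM
    (fun i v hv v' hv' ⟨g, hg⟩ => (hS i).inj v hv v' hv' g hg)
    (fun a h => ⟨⟨a, h⟩, 0, (hS _).mem, (hS ⟨a, h⟩).zero.symm ▸ RK.refl a⟩)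
    (fun i v hv a h ⟨g, hg⟩ => by
      have h1 := det_ne hd (hg ▸ nz _ (hM i v hv))
      obtain ⟨τ, γ, t1, -, t3, -, t5⟩ := key0 (hS i) hv h1 hg
      exact ⟨τ, t1, t3, t5.mono fun b hb hb' => RK.trans ⟨g, rfl⟩
        (RK.symm hd ((nz b hb').act h1) ⟨_, hb (cd b hb').1⟩)⟩)
  have a1 : ContDiff ℂ ω (p1 k 1) := (EsbH.L1 k).contDiff
  have a2 : ∀ j, ContDiff ℂ ω fun u : Cm (k + 1) => zz j (p2 k 1 u 0) := fun j => by
    rw [EsbH.zz_eq]
    exact contDiff_const.add (EsbH.L2 k j).contDiff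
  obtain ⟨U, pu, c, u1, u2, u3, u4, u5, u6⟩ := quo2 {q : BF d N × Cm 2 | M q.1 ∧ q.2 ≠ 0} RU
    (fun i : {a // M a} × Fin 2 => p1 k 1 ⁻¹' B i.1)
    (fun i w => (σ i.1 (p1 k 1 w), zz i.2 (p2 k 1 w 0))) ⟨(a0, zz 0 0), h0, EsbH.zz_ne 0 0⟩
    (fun q _ => RU.refl q) (fun _ q' h => RU.symm hd (nz _ h.1) h.2) (fun _ _ _ => RU.trans)
    (fun q q' h hq => by
      obtain ⟨g, c, h1, h2⟩ := hq
      have hg := det_ne hd (h1 ▸ nz _ h.1)
      have hc := c_ne hg h.2 h2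
      refine ⟨fun y => (act y.1 g, c • g⁻¹ *ᵥ y.2), ((ca g).comp continuous_fst).prodMk
        ((continuous_const.matrix_mulVec continuous_snd).const_smul c), Prod.ext h1.symm ?_,
        fun y hy => ⟨⟨inv _ g hy.1 hg, smul_ne_zero hc (inv_ne hg hy.2)⟩, g, c, rfl, ?_⟩⟩
      · show c • g⁻¹ *ᵥ q.2 = q'.2
        rw [← Matrix.mulVec_smul, ← h2, inv_mv hg]
      · rw [Matrix.mulVec_smul, mv_inv hg])
    (fun q h q' h' hf => by
      obtain ⟨g, g1, g2⟩ := cl0 hd (a := fun t : (BF d N × Cm 2) × BF d N × Cm 2 => t.1.1)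
        (a' := fun t => t.2.1) (f := fun y => lf (y.2 *ᵥ y.1.2.2) y.1.1.2) (by fun_prop)
        (by fun_prop) (by
          have h1 : Continuous fun y : ((BF d N × Cm 2) × BF d N × Cm 2) × M2 => y.2 *ᵥ y.1.2.2 :=
            continuous_snd.matrix_mulVec (by fun_prop)
          unfold lf
          fun_prop) (t := (q, q')) (nz _ h.1) (nz _ h'.1)
        (hf.mono fun t ⟨g, c, h1, h2⟩ => ⟨g, h1, by simp only [h2, lf, Pi.smul_apply, smul_eq_mul]; ring⟩)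
      obtain ⟨c, hc⟩ := lf_zero h.2 g2
      exact ⟨g, c, g1, hc⟩)
    ⟨C ×ˢ Metric.sphere 0 1, fun q h => ⟨c2 _ h.1, fun k => by simpa [k] using h.2⟩,
      c1.prod (isCompact_sphere 0 1), fun q h => by
      obtain ⟨g, g1, g2⟩ := c3 _ h.1
      have h1 := inv_ne g1 h.2
      exact ⟨(act q.1 g, (‖g⁻¹ *ᵥ q.2‖ : ℂ)⁻¹ • g⁻¹ *ᵥ q.2), ⟨g2,
        by rw [mem_sphere_zero_iff_norm, norm_smul, norm_inv, Complex.norm_real, norm_norm,
          inv_mul_cancel₀ (norm_ne_zero_iff.2 h1)]⟩, g, _, rfl, by rw [Matrix.mulVec_smul, mv_inv g1]⟩⟩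
    (fun i => (hS i.1).opn.preimage a1.continuous)
    (fun i w hw => (((hS i.1).an _ hw).comp a1.contDiffAt.analyticAt).prod
      (a2 i.2).contDiffAt.analyticAt)
    (fun i w hw => ⟨hM i.1 _ hw, EsbH.zz_ne _ _⟩)
    (fun i w hw w' hw' ⟨g, c, h1, h2⟩ => by
      have h3 := (hS i.1).inj _ hw _ hw' g h1
      obtain ⟨c', c5, rfl⟩ := hL _ (hM i.1 _ hw) g
        (h1.symm.trans (congrArg (σ i.1) h3.symm))
      have h4 : c' ≠ 0 := fun h => by simp [h, hd.ne'] at c5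
      have h5 := congrFun h2 i.2
      have h6 := congrFun h2 i.2.rev
      simp only [Matrix.smul_mulVec, Matrix.one_mulVec, Pi.smul_apply, zz_self, zz_rev,
        smul_eq_mul, mul_one] at h5 h6
      rw [← ap_eta w, ← ap_eta w', h3]
      exact congrArg _ (funext fun l => by
        rw [Subsingleton.elim l 0]
        exact (mul_left_cancel₀ h4 (h5 ▸ h6)).symm))
    (fun q h => by
      obtain ⟨j, hj⟩ := ne_iff.1 h.2
      refine ⟨(⟨q.1, h.1⟩, j), ap 0 fun _ => q.2 j.rev / q.2 j, ?_, 1, (q.2 j)⁻¹, ?_, ?_⟩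
      · rw [mem_preimage, p1_ap]
        exact (hS _).mem
      · rw [p1_ap, act_one]
        exact (hS ⟨q.1, h.1⟩).zero
      · rw [p2_ap, Matrix.one_mulVec, eq_inv_smul_iff₀ hj]
        exact (zz_div hj).symm)
    (fun i w hw q h ⟨g, c, h1, h2⟩ => by
      dsimp only at h1 h2
      have hg := det_ne hd (h1 ▸ nz _ (hM i.1 _ hw))
      have hc := c_ne hg (EsbH.zz_ne _ _) h2
      obtain ⟨τ, γ, t1, t2, t3, t4, t5⟩ := key0 (hS i.1) hw hg h1
      let Y : BF d N × Cm 2 → Cm 2 := fun y => γ y.1 *ᵥ (g⁻¹ *ᵥ y.2)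
      have y1 : ContDiffAt ℂ ω Y q := an_mv' (t2.contDiffAt.comp q contDiffAt_fst)
        (an_mv' contDiffAt_const contDiffAt_snd)
      have y2 : Y q = c⁻¹ • zz i.2 (p2 k 1 w 0) := by
        simp only [Y, t4, Matrix.one_mulVec]
        rw [eq_inv_smul_iff₀ hc, ← Matrix.mulVec_smul, ← h2, inv_mv hg]
      have y3 : Y q i.2 ≠ 0 := by
        rw [y2, Pi.smul_apply, zz_self, smul_eq_mul, mul_one]
        exact inv_ne_zero hc
      refine ⟨fun y => ap (τ y.1) fun _ => Y y i.2.rev / Y y i.2, (ContDiffAt.comp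
        (f := fun y : BF d N × Cm 2 => (τ y.1, fun _ : Fin 1 => Y y i.2.rev / Y y i.2)) q
        cd_ap.contDiffAt ((t1.contDiffAt.comp q contDiffAt_fst).prodMk (contDiffAt_pi.2 fun _ =>
          (contDiffAt_pi.1 y1 _).div (contDiffAt_pi.1 y1 _) y3))).analyticAt, ?_, ?_⟩
      · refine Eq.trans ?_ (ap_eta w)
        dsimp only
        rw [t3, y2]
        exact congrArg _ (funext fun l => by
          rw [Subsingleton.elim l 0]
          simp only [Pi.smul_apply, zz_self, zz_rev, smul_eq_mul, mul_one]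
          exact mul_div_cancel_left₀ _ (inv_ne_zero hc))
      · filter_upwards [(continuous_fst.tendsto q).eventually t5,
          (contDiffAt_pi.1 y1 i.2).continuousAt.eventually_ne y3] with y h3 h4 hy
        rw [p1_ap, p2_ap]
        exact RU.trans (q' := (act y.1 g, g⁻¹ *ᵥ y.2)) ⟨g, 1, rfl, by rw [mv_inv hg, one_smul]⟩
          (RU.symm hd ((nz _ hy.1).act hg) (inv_ne hg hy.2)
            ⟨γ y.1, _, h3 (cd _ hy.1).1, zz_div h4⟩))
  choose rp r1 r2 using u2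
  have r3 : ∀ a z, M a → z ≠ 0 → RU (a, z) (rp (pu (a, z))) := fun a z h hz =>
    (u3 _ ⟨h, hz⟩ _ (r1 _)).1 (r2 _).symm
  have r4 : ∀ a z, M a → z ≠ 0 → pk (rp (pu (a, z))).1 = pk a := fun a z h hz => by
    obtain ⟨g, -, h1, -⟩ := r3 a z h hz
    exact ((k3 _ h _ (r1 _).1).2 ⟨g, h1⟩).symm
  have r5 : ∀ a z, M a → z ≠ 0 → pt (ev (rp (pu (a, z))).1 (rp (pu (a, z))).2) = pt (ev a z) :=
    fun a z h hz => by
    obtain ⟨g, c, h1, h2⟩ := r3 a z h hz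
    have hc := c_ne (det_ne hd (h1 ▸ nz _ (r1 _).1)) (r1 _).2 h2
    rw [h1, ev_act, h2, ev_arg, hC.smul _ _ ((cd a h).1 z hz) (pow_ne_zero d hc)]
  have ch : ∀ x : U.X, ∃ i, At (c i) x ∧ p1 k 1 (c i x) ∈ B i.1 := fun x => by
    obtain ⟨i, hi⟩ : chartAt (Cm (k + 1)) x ∈ range c := u4 ▸ chart_mem_atlas _ x
    have h : At (c i) x := hi ▸ ⟨chart_mem_atlas _ x, mem_chart_source _ x⟩
    exact ⟨i, h, by have h1 := h.mem_target; rwa [(u5 i).1] at h1⟩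
  have hp : ∀ x : U.X, ContMDiffAt 𝓘(ℂ, Cm (k + 1)) 𝓘(ℂ, Cm k) ω (fun x => pk (rp x).1) x ∧
      Sbm (k + 1) k (fun x => pk (rp x).1) x := fun x => by
    obtain ⟨i, h1, h2⟩ := ch x
    have h3 : ∀ v ∈ B i.1, v ∈ (χ i.1).target := fun v hv => (k5 i.1).1.symm ▸ hv
    have h4 : p1 k 1 =ᶠ[𝓝 (c i x)] fun u => χ i.1 ((χ i.1).symm (p1 k 1 u)) := by
      filter_upwards [a1.continuous.continuousAt.eventually ((hS i.1).opn.mem_nhds h2)] with u hu
      exact ((χ i.1).right_inv (h3 _ hu)).symm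
    refine hol_of h1 (F := fun u => (χ i.1).symm (p1 k 1 u)) (fun u hu => ?_) (c' := χ i.1)
      ⟨k4 ▸ mem_range_self _, (χ i.1).map_target (h3 _ h2)⟩
      (((χ i.1).continuousAt_symm (h3 _ h2)).comp a1.continuous.continuousAt)
      (a1.contDiffAt.analyticAt.congr h4) fun v => ⟨ap v 0, ?_⟩
    · rw [(u5 i).1] at hu
      rw [(u5 i).2 u hu, r4 _ _ (hM _ _ hu) (EsbH.zz_ne _ _), (k5 i.1).2 _ hu]
    · rw [← h4.fderiv_eq]
      exact (congrArg (· (ap v 0)) ((EsbH.L1 k).fderiv (x := c i x))).trans (p1_ap v 0)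
  have he : ∀ x : U.X, ContMDiffAt 𝓘(ℂ, Cm (k + 1)) 𝓘(ℂ, Cm n) ω
      (fun x => pt (ev (rp x).1 (rp x).2)) x ∧
      Sbm (k + 1) n (fun x => pt (ev (rp x).1 (rp x).2)) x := fun x => by
    obtain ⟨i, h1, h2⟩ := ch x
    have h3 : ∀ y : V.X, At (chartAt (Cm n) y) y := fun y =>
      ⟨chart_mem_atlas _ y, mem_chart_source _ y⟩
    obtain ⟨e1, e2, e3⟩ := esb hC hd (hS i.1) i.2 h2 (hG _ (cd _ (hM _ _ h2)).1) _ (h3 _)
    refine hol_of h1 (fun u hu => ?_) (h3 _) e1 e2 e3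
    rw [(u5 i).1] at hu
    rw [(u5 i).2 u hu, r5 _ _ (hM _ _ hu) (EsbH.zz_ne _ _)]
  exact ⟨⟨M, K, U, pk, fun a z => pu (a, z), fun x => pk (rp x).1,
    fun x => pt (ev (rp x).1 (rp x).2), cd, inv, opn, fun a a' h h' => k3 a h a' h',
    fun a a' z z' h h' hz hz' => u3 (a, z) ⟨h, hz⟩ (a', z') ⟨h', hz'⟩, k2,
    fun x => ⟨_, _, (r1 x).1, (r1 x).2, r2 x⟩, r4, r5, fun x => (hp x).1, fun x => (hp x).2,
    fun x => (he x).1, fun x => (he x).2, fun a h => ⟨σ ⟨a, h⟩, χ ⟨a, h⟩, fun j => c (⟨a, h⟩, j),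
      (k5 _).1.symm ▸ hS ⟨a, h⟩, k4 ▸ mem_range_self _, (k5 _).1.symm ▸ (k5 _).2,
      (k5 _).1.symm ▸ hM _, fun j => ⟨u4 ▸ mem_range_self _, (k5 _).1.symm ▸ (u5 _).1,
        (u5 (⟨a, h⟩, j)).1.symm ▸ (u5 (⟨a, h⟩, j)).2⟩⟩,
    fun a τ c => k6 _ a τ c, fun a z τ c h1 h2 h3 h4 => u6 _ (fun s => (a s, z s)) τ c (h1.prod h2)
      (h3.and (h2.continuousAt.eventually_ne h4)), k1, u1⟩, rfl⟩

end Vale.Agent.P280Z.Nw
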